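import Crest.Statements.S0020
import Crest.Agent.T15.FinB_88
import Crest.Agent.T15.PrAPf_15

set_option autoImplicit false
open Crest Crest.NumberTheoryR

namespace Crest.Agent.S0020

/-- The predicate, on codes of integer polynomials in arbitrarily many variables (lists of monomials, each an integer coefficient with an exponent vector), that the coded polynomial has a rational zero is not a computable predicate: no algorithm decides whether an integer polynomial, with the number of variables part of the input, has a zero with all coordinates rational. -/
theorem result :
    ¬ ComputablePred Crest.NumberTheoryR.PolyCode.HasRatZero := by
  exact Crest.Agent.T15.Top.finB Crest.Agent.T15.PrAP.apStmt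

end Crest.Agent.S0020
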