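import Crest.Statements.S0198
import Crest.Agent.T145.FinV_76

set_option autoImplicit false
open Crest.ProbabilityR.SpinModel
open Crest Crest.ProbabilityR Crest.ProbabilityR.SpinModel

namespace Crest.Agent.S0198

/-- Planar XY model with free boundary on the boxes [−R, R]². Suppose C(b, r) is, for every b > 0 and r, the limit as R → ∞ of the box expectation of the cosine of the angle between the spins at the origin and at (r, 0), and m(b) is, for every b > 0, the limit of −log C(b, r) / r. Let b_c be the infimum of the b > 0 with m(b) = 0. Then C(b_c, r) · r^{1/4} / (log r)^{1/8} converges, as r → ∞, to a positive real number. -/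
theorem result
    (C : ℝ → ℕ → ℝ)
    (hC : ∀ b : ℝ, 0 < b → ∀ r : ℕ,
      Filter.Tendsto (fun R : ℕ => xyBoxCorrelation b R r) Filter.atTop (nhds (C b r)))
    (m : ℝ → ℝ)
    (hm : ∀ b : ℝ, 0 < b →
      Filter.Tendsto (fun r : ℕ => -Real.log (C b r) / r) Filter.atTop (nhds (m b))) :
    ∃ B : ℝ, 0 < B ∧
      Filter.Tendsto
        (fun r : ℕ => C (sInf {b : ℝ | 0 < b ∧ m b = 0}) r * (r : ℝ) ^ ((1 : ℝ) / 4) /
          Real.log r ^ ((1 : ℝ) / 8))
        Filter.atTop (nhds B) := by
  exact Crest.Agent.T145.Top.s0198_of Crest.Agent.T145.All.t1m Crest.Agent.T145.All.t5a Crest.Agent.T145.All.p6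
    Crest.Agent.T145.All.p1 Crest.Agent.T145.All.p4 Crest.Agent.T145.All.p5 Crest.Agent.T145.Fin.crit C hC m hm

end Crest.Agent.S0198
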