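import Crest.Statements.S0200
import Crest.Agent.T145.AllU_21

set_option autoImplicit false
open Crest.ProbabilityR.HeightModel
open Crest Crest.ProbabilityR Crest.ProbabilityR.HeightModel

namespace Crest.Agent.S0200

/-- Discrete Gaussian heights σ ∈ 2πℤ on ℤ² with an admissible interaction J (a finite set of steps, invariant under the symmetries of the square, containing the nearest neighbours), weight exp(−(4β·card J)⁻¹ Σ_x Σ_{y∈J} (σ_{x+y} − σ_x)²) at temperature β, zero heights outside the box [−R, R]². Let β_c be the infimum of the β > 0 at which sup_{R ≥ 1} E σ_0² = ∞. Then such β exist, β_c > 0, the supremum is finite for 0 < β < β_c, and it is infinite for every β ≥ β_c, the threshold included. -/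
theorem result
    (J : Finset (ℤ × ℤ)) (hJ : IsAdmissible J) :
    {β : ℝ | 0 < β ∧ IsRough J β}.Nonempty ∧ 0 < criticalTemp J ∧
      (∀ β : ℝ, 0 < β → β < criticalTemp J → ⨆ R : ℕ, boxVariance J β (R + 1) < ⊤) ∧
      ∀ β : ℝ, criticalTemp J ≤ β → IsRough J β := by
  exact Crest.Agent.T145.s0200_of Crest.Agent.T145.All.t1m Crest.Agent.T145.All.t5a
    Crest.Agent.T145.FS.e1 J hJ

end Crest.Agent.S0200
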