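import Crest.Statements.S0201
import Crest.Agent.T145.Fin_76

set_option autoImplicit false
open Crest.ProbabilityR.HeightModel
open Crest Crest.ProbabilityR Crest.ProbabilityR.HeightModel

namespace Crest.Agent.S0201

/-- Discrete Gaussian heights with admissible interaction J, pinned at 0 on the tori (ℤ/n)², n = L^N; β_c the roughening threshold of the zero-boundary boxes, v_J² the variance constant. For some L ≥ 2 and β_eff > 0 on [β_c, ∞): for β ≥ β_c and smooth periodic u, f = −Δu, log E exp(n⁻² Σ_x (σ_x − σ̄) f(x/n)) → β_eff(β)/(2v_J²)·∫_{[0,1]²} f u as N → ∞; β_eff(β_c) = 8π v_J²; (β_eff(β) − β_eff(β_c))/(β − β_c) → +∞ as β ↓ β_c; β_eff differentiable on (β_c, ∞); β_eff(β) − β = O(e^(−cβ)), c > 0. -/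
theorem result
    (J : Finset (ℤ × ℤ)) (hJ : IsAdmissible J) :
    ∃ L : ℕ, 2 ≤ L ∧ ∃ βeff : ℝ → ℝ,
      (∀ β : ℝ, criticalTemp J ≤ β → 0 < βeff β) ∧
      (∀ β : ℝ, criticalTemp J ≤ β → ∀ u : ℝ × ℝ → ℝ, IsSmoothPeriodic u →
        Filter.Tendsto
          (fun N : ℕ => Real.log (torusLaplace J β (L ^ N) (fun x => -flatLaplacian u x)))
          Filter.atTop
          (nhds (βeff β / (2 * varianceConst J) *
            unitSquarePairing (fun x => -flatLaplacian u x) u))) ∧
      βeff (criticalTemp J) = 8 * Real.pi * varianceConst J ∧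
      Filter.Tendsto
        (fun β : ℝ => (βeff β - βeff (criticalTemp J)) / (β - criticalTemp J))
        (nhdsWithin (criticalTemp J) (Set.Ioi (criticalTemp J))) Filter.atTop ∧
      DifferentiableOn ℝ βeff (Set.Ioi (criticalTemp J)) ∧
      ∃ c : ℝ, 0 < c ∧ ∃ C β₀ : ℝ, ∀ β : ℝ, β₀ ≤ β →
        abs (βeff β - β) ≤ C * Real.exp (-c * β) := by
  exact Crest.Agent.T145.Top.s0201_of Crest.Agent.T145.All.t1m Crest.Agent.T145.All.t5a Crest.Agent.T145.All.tlim
    Crest.Agent.T145.FS.e1 Crest.Agent.T145.FS.e3 Crest.Agent.T145.FS.e4 Crest.Agent.T145.All.p1 Crest.Agent.T145.Fin.slope J hJ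

end Crest.Agent.S0201
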