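import Crest.Statements.S0202
import Crest.Agent.T145.AllU_21

set_option autoImplicit false
open Crest.ProbabilityR.HeightModel
open Crest Crest.ProbabilityR Crest.ProbabilityR.HeightModel

namespace Crest.Agent.S0202

/-- Discrete Gaussian heights σ ∈ 2πℤ on ℤ² with the range-ρ box interaction J_ρ = {x ≠ 0 : ‖x‖_∞ ≤ ρ}, weight exp(−(4β·card J_ρ)⁻¹ Σ_x Σ_{y∈J_ρ} (σ_{x+y} − σ_x)²) at temperature β, zero heights outside [−R, R]². Let β_c(J_ρ) be the infimum of the β > 0 at which sup_{R ≥ 1} E σ_0² = ∞, and v² = (2·card J_ρ)⁻¹ Σ_{y∈J_ρ} y₁². Then β_c(J_ρ)/(8π v²) tends to 1 as ρ → ∞. -/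
theorem result :
    Filter.Tendsto
      (fun ρ : ℕ => criticalTemp (boxInteraction ρ) /
        (8 * Real.pi * varianceConst (boxInteraction ρ)))
      Filter.atTop (nhds 1) := by
  exact Crest.Agent.T145.s0202_of Crest.Agent.T145.All.t1m Crest.Agent.T145.All.t5a
    Crest.Agent.T145.FS.e1 Crest.Agent.T145.FS.e2

end Crest.Agent.S0202
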