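import Crest.Statements.S0225
import Crest.Agent.T156.SoTop_88
import Crest.Agent.T156.Key_88

set_option autoImplicit false
open Crest.ProbabilityR.SpinGlass
open Crest Crest.ProbabilityR Crest.ProbabilityR.SpinGlass

namespace Crest.Agent.S0225

/-- The zero-field Gaussian Ising mean-field spin glass at a fixed inverse temperature β > 1: the variance, under the Gaussian disorder, of the log partition function on n spins, divided by the cube root of n, converges to a positive real number as n tends to infinity. -/
theorem result
    (β : ℝ) (hβ : 1 < β) :
    ∃ c : ℝ, 0 < c ∧
      Filter.Tendsto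
        (fun n : ℕ => ProbabilityTheory.variance (logPartitionFunction n β) (disorderLaw n) /
          (n : ℝ) ^ ((1 : ℝ) / 3))
        Filter.atTop (nhds c) := by
  exact Crest.Agent.T156.Soft.s25_of_s27 (Crest.Agent.T156.Soft.s27_of_key (by first | exact Crest.Agent.T156.Alt.key hβ | exact Crest.Agent.T156.Alt.key β hβ))

end Crest.Agent.S0225
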