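import Crest.Statements.S0227
import Crest.Agent.T156.SoTop_88
import Crest.Agent.T156.Key_88

set_option autoImplicit false
open Crest.ProbabilityR.SpinGlass
open Crest Crest.ProbabilityR Crest.ProbabilityR.SpinGlass

namespace Crest.Agent.S0227

/-- Same spin glass, β > 1. Let Y be the log partition function on n spins minus n log 2 plus an independent centred Gaussian of variance β²/2, centred at its mean and multiplied by n^(-1/6). There are reals a_k, k ≥ 1, with a_1 = 0 and a_2 > 0, such that for every k ≥ 1 there are c > 0 and C with Y^k integrable and its mean within C n^(-c) of a_k for all n ≥ 2, and there are c > 0 and C with exp(c times the absolute value of Y) integrable and of mean at most C for all n ≥ 2. -/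
theorem result
    (β : ℝ) (hβ : 1 < β) :
    ∃ a : ℕ → ℝ, a 1 = 0 ∧ 0 < a 2 ∧
      (∀ k : ℕ, 1 ≤ k → ∃ c : ℝ, 0 < c ∧ ∃ C : ℝ, ∀ n : ℕ, 2 ≤ n →
        MeasureTheory.Integrable (fun ω => scaledFluctuation n β ω ^ k) (completedLaw n β) ∧
          |fluctuationMoment β k n - a k| ≤ C * (n : ℝ) ^ (-c)) ∧
      (∃ c : ℝ, 0 < c ∧ ∃ C : ℝ, ∀ n : ℕ, 2 ≤ n →
        MeasureTheory.Integrable (fun ω => Real.exp (c * |scaledFluctuation n β ω|))
            (completedLaw n β) ∧
          (∫ ω, Real.exp (c * |scaledFluctuation n β ω|) ∂completedLaw n β) ≤ C) := by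
  exact Crest.Agent.T156.Soft.s27_of_key (by first | exact Crest.Agent.T156.Alt.key hβ | exact Crest.Agent.T156.Alt.key β hβ)

end Crest.Agent.S0227
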