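import Crest.Statements.S0229
import Crest.Agent.T157.O0Thm_1

set_option autoImplicit false
open Crest Crest.ProbabilityR

namespace Crest.Agent.S0229

/-- Heat-bath dynamics for `n` Ising spins, independent centred Gaussian couplings of variance `1/n`, zero field: one uniform site per step, or a rate-one clock per site. For all `δ > 0`, `ε ∈ (0,1/2)`, with probability tending to `1`: worst-start mixing time to accuracy `ε` is in `[n^(5/3-δ), n^(5/3+δ)]` steps and `[n^(2/3-δ), n^(2/3+δ)]` time, and the largest ratios variance / Dirichlet form (rate one per site) and entropy of `f²` / Dirichlet form of `f` are in `[n^(2/3-δ), n^(2/3+δ)]`. -/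
theorem result (δ : ℝ) (hδ : 0 < δ) (ε : ℝ)
    (hε : 0 < ε) (hε' : ε < 1 / 2) :
    Filter.Tendsto (fun n : ℕ => Crest.ProbabilityR.SpinGlassDynamics.disorderLaw n
      {g | (((∃ k : ℕ, (k : ℝ) ≤ (n : ℝ) ^ (5 / 3 + δ) ∧ Crest.ProbabilityR.SpinGlassDynamics.worstTV n 1 g k ≤ ε) ∧
          (∀ k : ℕ, (k : ℝ) < (n : ℝ) ^ (5 / 3 - δ) → ε < Crest.ProbabilityR.SpinGlassDynamics.worstTV n 1 g k)) ∧
        ((∃ t : ℝ, 0 ≤ t ∧ t ≤ (n : ℝ) ^ (2 / 3 + δ) ∧ ∀ x, Crest.ProbabilityR.SpinGlassDynamics.stateTV n 1 g t x ≤ ε) ∧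
          (∀ t : ℝ, 0 ≤ t → t < (n : ℝ) ^ (2 / 3 - δ) → ∃ x, ε < Crest.ProbabilityR.SpinGlassDynamics.stateTV n 1 g t x))) ∧
        (((∀ f : (Fin n → Bool) → ℝ, Crest.ProbabilityR.SpinGlassDynamics.gibbsVar n 1 g f ≤ (n : ℝ) ^ (2 / 3 + δ) * Crest.ProbabilityR.SpinGlassDynamics.dirichletForm n 1 g f) ∧
          (∃ f : (Fin n → Bool) → ℝ, 0 < Crest.ProbabilityR.SpinGlassDynamics.gibbsVar n 1 g f ∧
            (n : ℝ) ^ (2 / 3 - δ) * Crest.ProbabilityR.SpinGlassDynamics.dirichletForm n 1 g f ≤ Crest.ProbabilityR.SpinGlassDynamics.gibbsVar n 1 g f)) ∧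
        ((∀ f : (Fin n → Bool) → ℝ, Crest.ProbabilityR.SpinGlassDynamics.gibbsEnt n 1 g (fun x => f x ^ 2) ≤ (n : ℝ) ^ (2 / 3 + δ) * Crest.ProbabilityR.SpinGlassDynamics.dirichletForm n 1 g f) ∧
          (∃ f : (Fin n → Bool) → ℝ, 0 < Crest.ProbabilityR.SpinGlassDynamics.gibbsEnt n 1 g (fun x => f x ^ 2) ∧
            (n : ℝ) ^ (2 / 3 - δ) * Crest.ProbabilityR.SpinGlassDynamics.dirichletForm n 1 g f ≤ Crest.ProbabilityR.SpinGlassDynamics.gibbsEnt n 1 g (fun x => f x ^ 2))))})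
      Filter.atTop (nhds 1) := by
  exact Crest.Agent.T157.TopZ.r29_1 δ hδ ε hε hε'

end Crest.Agent.S0229
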