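import Crest.Statements.S0230
import Crest.Agent.T157.BEnd_1

set_option autoImplicit false
open Crest Crest.ProbabilityR

namespace Crest.Agent.S0230

/-- Heat-bath dynamics for `n` Ising spins with independent centred Gaussian couplings of variance `β²/n`, zero field, `0 ≤ β < 1` (continuous time: rate-one clock per site; discrete: a uniform site per step). For some `λ > 0` with `λ ≤ (1-β)²`, `λ = 1` if `β = 0`, `t_n = log n/(2λ)` and all `ε ∈ (0,1)`, in probability over the couplings, the worst-start total variation distance to the Gibbs law tends to `1` at time `(1-ε)t_n` and step `⌊(1-ε)n t_n⌋`, to `0` at `(1+ε)t_n` and `⌈(1+ε)n t_n⌉`. -/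
theorem result (β : ℝ) (hβ : 0 ≤ β) (hβ1 : β < 1) :
    ∃ lam : ℝ, 0 < lam ∧ lam ≤ (1 - β) ^ 2 ∧ (β = 0 → lam = 1) ∧
      ∀ ε : ℝ, 0 < ε → ε < 1 → ∀ η : ℝ, 0 < η →
        Filter.Tendsto (fun n : ℕ => Crest.ProbabilityR.SpinGlassDynamics.disorderLaw n
            {g | ∀ x, Crest.ProbabilityR.SpinGlassDynamics.stateTV n β g ((1 - ε) * (Real.log n / (2 * lam))) x ≤ 1 - η})
          Filter.atTop (nhds 0) ∧
        Filter.Tendsto (fun n : ℕ => Crest.ProbabilityR.SpinGlassDynamics.disorderLaw n
            {g | ∃ x, η ≤ Crest.ProbabilityR.SpinGlassDynamics.stateTV n β g ((1 + ε) * (Real.log n / (2 * lam))) x})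
          Filter.atTop (nhds 0) ∧
        Filter.Tendsto (fun n : ℕ => Crest.ProbabilityR.SpinGlassDynamics.disorderLaw n
            {g | Crest.ProbabilityR.SpinGlassDynamics.worstTV n β g ⌊(1 - ε) * n * (Real.log n / (2 * lam))⌋₊ ≤ 1 - η})
          Filter.atTop (nhds 0) ∧
        Filter.Tendsto (fun n : ℕ => Crest.ProbabilityR.SpinGlassDynamics.disorderLaw n
            {g | η ≤ Crest.ProbabilityR.SpinGlassDynamics.worstTV n β g ⌈(1 + ε) * n * (Real.log n / (2 * lam))⌉₊})
          Filter.atTop (nhds 0) := by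
  exact Crest.Agent.T157.TopZ.r30_1 β hβ hβ1

end Crest.Agent.S0230
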