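import Crest.Statements.S0232
import Crest.Agent.T157.O0Thm_1
import Crest.Agent.T157.FinH_88

set_option autoImplicit false
open Crest Crest.ProbabilityR

namespace Crest.Agent.S0232

/-- Heat-bath dynamics (rate-one clocks) for `n` Ising spins, inverse temperature `1`, zero field, couplings `g/√n`, the `g` independent and all standard Gaussian or all uniform on `±1`. Some Borel law on continuous paths on `(0,∞)` (uniform convergence on compacts), not a point mass, carried by nonnegative nonzero nonincreasing paths tending to `0`, is for both coupling laws the weak limit of the law of the rescaled stationary autocorrelation `s ↦ n^(1/3)·Σ_i E_π[σ_i(0) σ_i(s n^(2/3))]/n`. -/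
theorem result :
    ∃ Q : MeasureTheory.Measure Crest.ProbabilityR.SpinGlassDynamics.Path, MeasureTheory.IsProbabilityMeasure Q ∧
      (¬ ∃ f : Crest.ProbabilityR.SpinGlassDynamics.Path, Q = MeasureTheory.Measure.dirac f) ∧
      (∀ᶠ f in MeasureTheory.ae Q, (∀ s, 0 ≤ f s) ∧ (∃ s, f s ≠ 0) ∧
        (∀ s s', s ≤ s' → f s' ≤ f s) ∧ Filter.Tendsto (fun s => f s) Filter.atTop (nhds 0)) ∧
      ∀ (b : Bool) (F : BoundedContinuousFunction Crest.ProbabilityR.SpinGlassDynamics.Path ℝ),
        Filter.Tendsto (fun n : ℕ => ∫ g, F (Crest.ProbabilityR.SpinGlassDynamics.toPath n g) ∂(Crest.ProbabilityR.SpinGlassDynamics.couplingLaw b n))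
          Filter.atTop (nhds (∫ f, F f ∂Q)) := by
  exact Crest.Agent.T157.TopZ.r32_fin Crest.Agent.T157.O0.thm1

end Crest.Agent.S0232
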