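import Crest.Statements.S0233
import Crest.Agent.T157.O0Thm_1
import Crest.Agent.T157.FinH_88

set_option autoImplicit false
open Crest Crest.ProbabilityR

namespace Crest.Agent.S0233

/-- Same critical dynamics, both coupling laws; `A_n(t)` is the rescaled stationary autocorrelation, `B_n(s,t) = n^(1/3)·Σ_i E[σ_i(s n^(2/3)) σ_i((s+t) n^(2/3))]/n` the two-time one from a uniformly random start. Some Borel law `Q` on (path on `(0,∞)`) × (continuous function on `(0,∞)²`) is for both coupling laws the weak limit of the law of `(A_n, B_n)`; under `Q`, for `0 < a ≤ b`, `ε > 0`, the chance that `B(s,t)`, `A(t)` differ by more than `ε` at some `t ∈ [a,b]` tends to `0` as `s → ∞`. -/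
theorem result :
    ∃ Q : MeasureTheory.Measure Crest.ProbabilityR.SpinGlassDynamics.PathPair, MeasureTheory.IsProbabilityMeasure Q ∧
      (∀ (b : Bool) (F : BoundedContinuousFunction Crest.ProbabilityR.SpinGlassDynamics.PathPair ℝ),
        Filter.Tendsto (fun n : ℕ => ∫ g, F (Crest.ProbabilityR.SpinGlassDynamics.toPathPair n g) ∂(Crest.ProbabilityR.SpinGlassDynamics.couplingLaw b n))
          Filter.atTop (nhds (∫ p, F p ∂Q))) ∧
      ∀ (a b ε : ℝ), 0 < a → a ≤ b → 0 < ε →
        Filter.Tendsto (fun s : Set.Ioi (0 : ℝ) => Q {p | ∃ t : Set.Ioi (0 : ℝ),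
            a ≤ (t : ℝ) ∧ (t : ℝ) ≤ b ∧ ε < |p.2 (s, t) - p.1 t|})
          Filter.atTop (nhds 0) := by
  exact Crest.Agent.T157.TopZ.r33_fin Crest.Agent.T157.O0.thm1

end Crest.Agent.S0233
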