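import Crest.Statements.S0234
import Crest.Agent.T157.LpAll_17

set_option autoImplicit false
open Crest Crest.ProbabilityR

namespace Crest.Agent.S0234

/-- Heat-bath dynamics for `n` Ising spins with independent centred Gaussian couplings of variance `β²/n`, zero field, fixed `0 < β < 1`: there is a finite constant `C` depending only on `β` such that, with probability over the couplings tending to `1`, every real observable `f` has Gibbs variance at most `C` times its heat-bath Dirichlet form (rate-one clock per site: the sum over sites of the expected conditional variance of `f` given the other spins). -/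
theorem result (β : ℝ) (hβ : 0 < β) (hβ1 : β < 1) :
    ∃ C : ℝ, Filter.Tendsto (fun n : ℕ => Crest.ProbabilityR.SpinGlassDynamics.disorderLaw n
        {g | ∀ f : (Fin n → Bool) → ℝ, Crest.ProbabilityR.SpinGlassDynamics.gibbsVar n β g f ≤ C * Crest.ProbabilityR.SpinGlassDynamics.dirichletForm n β g f})
      Filter.atTop (nhds 1) := 
  Crest.Agent.T157.LpAll.r34 β hβ hβ1

end Crest.Agent.S0234
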