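import Crest.Statements.S0258
import Crest.Agent.T170.Pre_20
import Crest.Agent.T170.DescAsmB_64
import Crest.Agent.T170.DsGeo_74

set_option autoImplicit false
open Crest.AlgebraR.Blocks Crest.AlgebraR.Weights
open Crest Crest.AlgebraR

namespace Crest.Agent.S0258

/-- For a prime p, an algebraically closed field k of characteristic p, a finite group G and a block idempotent e of k[G], the number of isomorphism classes of simple k[G]-modules in the block equals the number of G-conjugacy classes of p-weights assigned to it. Stated in ℕ as: the order of G times the first number equals the sum over all p-subgroups Q of the order of N_G(Q) times the number of classes of weight modules at Q assigned to the block (which is the order of G times the second number). -/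
theorem result (p : ℕ) (hp : p.Prime)
    (k : Type) [Field k] [IsAlgClosed k] [CharP k p] (G : Type) [Group G] [Finite G]
    (e : MonoidAlgebra k G) (he : IsBlockIdempotent e) :
    Nat.card G * blockSimpleCount e = weightedWeightCount p e := by
  exact Crest.Agent.T170.s0258_of_cnt hp
    (Crest.Agent.T170.cnt_of_descent hp
      (Crest.Agent.T170.Desc64.descent64 hp (Crest.Agent.T170.Desc74.geoStmt hp))) k G e he

end Crest.Agent.S0258
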