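import Crest.Statements.S0493
import Crest.Agent.T318.No_25
import Crest.Agent.T318.Yes_15
import Crest.Agent.T318.Gen_15
import Crest.Agent.T318.Hyper_17
import Crest.Agent.T318.Final_21

set_option autoImplicit false
open Crest.Enc Crest.BinPacking
open Crest Crest.LogicCS

namespace Crest.Agent.S0493

/-- For every natural number c, every language in NP reduces in polynomial time to the following gap problem: the reduction sends each bit string to the code of a list of rational item sizes, all in (1/6, 1], followed by the code of a natural number B, such that members are sent to instances whose items pack into B unit bins and non-members to instances whose items do not pack into B + c unit bins. -/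
theorem result (c : ℕ) (A : Set (List Bool))
    (hA : Crest.Complexity.InNP A) :
    ∃ f : List Bool → List Bool, Crest.Complexity.PolyTime f ∧
      ∀ x : List Bool, ∃ (sizes : List ℚ) (B : ℕ),
        f x = natCode sizes.length ++ (sizes.map ratCode).flatten ++ natCode B ∧
        (∀ a ∈ sizes, 1 / 6 < a ∧ a ≤ 1) ∧
        (x ∈ A → PacksInto (fun i : Fin sizes.length => sizes.get i) B) ∧
        (x ∉ A → ¬ PacksInto (fun i : Fin sizes.length => sizes.get i) (B + c)) := by
  exact Crest.Agent.T318.s0493_of_core
    (Crest.Agent.T318.coreHard_of_17 Crest.Agent.T318.C25.no_25 Crest.Agent.T318.C25.yes_15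
      (fun D _ _ _ hn hk hE => Crest.Agent.T318.C25.gen_15 D hn hk hE)) c A hA

end Crest.Agent.S0493
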